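import Mathlib.RingTheory.PowerSeries.Basic
import Mathlib.RingTheory.PowerSeries.Inverse
import Mathlib.RingTheory.Nilpotent.Lemmas
import Mathlib.Algebra.TrivSqZeroExt.Basic
import Mathlib.Tactic

/-!
# P241, block F3: Weierstrass division over a nilpotent ideal

`W` is a power series with `w_i ∈ J` for `i < D`, `w_D` a unit, `J ^ s = 0`.

* `exists_div`: division with remainder of degree `< D`, coefficientwise in any ideal `I`;
* `eq_zero_of_mul_deg_lt`: uniqueness;
* `X_pow_mem`: `X ^ (s D)` is a multiple of `W`;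
* `key`: if `G` has order `E < D` modulo `J` (with a unit coefficient `g_E`) and
  `G m = W f` modulo `X ^ N`, `s D ≤ N`, then `m = 0`;
* `key_module`: the same for elements `m` of a module.
-/

open PowerSeries Finset

namespace Vale.Agent.P241.H344

variable {B : Type*} [CommRing B]

/-- the part of degree `≥ D`, divided by `X ^ D` -/
noncomputable def hi (D : ℕ) (f : B⟦X⟧) : B⟦X⟧ := PowerSeries.mk fun n => coeff (n + D) f

/-- the part of degree `< D` -/
noncomputable def lo (D : ℕ) (f : B⟦X⟧) : B⟦X⟧ :=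
  PowerSeries.mk fun n => if n < D then coeff n f else 0

@[simp] theorem coeff_hi (D n : ℕ) (f : B⟦X⟧) : coeff n (hi D f) = coeff (n + D) f := by
  simp [hi]

@[simp] theorem coeff_lo (D n : ℕ) (f : B⟦X⟧) :
    coeff n (lo D f) = if n < D then coeff n f else 0 := by
  simp [lo]

theorem lo_add_hi (D : ℕ) (f : B⟦X⟧) : lo D f + X ^ D * hi D f = f := by
  ext n
  rw [map_add, coeff_lo, coeff_X_pow_mul']
  by_cases h : n < D
  · simp [h]
  · have h' : D ≤ n := not_lt.mp h
    simp [h, h', Nat.sub_add_cancel h']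

theorem hi_X_pow_mul (D : ℕ) (f : B⟦X⟧) : hi D (X ^ D * f) = f := by
  ext n
  rw [coeff_hi, coeff_X_pow_mul']
  simp

theorem hi_add (D : ℕ) (f g : B⟦X⟧) : hi D (f + g) = hi D f + hi D g := by
  ext n; simp

theorem hi_sub (D : ℕ) (f g : B⟦X⟧) : hi D (f - g) = hi D f - hi D g := by
  ext n; simp

theorem hi_neg (D : ℕ) (f : B⟦X⟧) : hi D (-f) = - hi D f := by
  ext n; simp

theorem hi_zero (D : ℕ) : hi D (0 : B⟦X⟧) = 0 := by
  ext n; simp

/-- all coefficients are in the ideal `I` -/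
def CIn (I : Ideal B) (f : B⟦X⟧) : Prop := ∀ n, coeff n f ∈ I

theorem CIn.mul {I J : Ideal B} {f g : B⟦X⟧} (hf : CIn I f) (hg : CIn J g) :
    CIn (I * J) (f * g) := by
  intro n
  rw [coeff_mul]
  exact Ideal.sum_mem _ fun ij _ => Ideal.mul_mem_mul (hf _) (hg _)

theorem CIn.mul_left {I : Ideal B} {f : B⟦X⟧} (g : B⟦X⟧) (hf : CIn I f) : CIn I (g * f) := by
  intro n
  rw [coeff_mul]
  exact Ideal.sum_mem _ fun ij _ => Ideal.mul_mem_left _ _ (hf _)

theorem CIn.hi {I : Ideal B} {f : B⟦X⟧} (D : ℕ) (hf : CIn I f) : CIn I (hi D f) := by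
  intro n
  rw [coeff_hi]
  exact hf _

theorem CIn.lo {I : Ideal B} {f : B⟦X⟧} (D : ℕ) (hf : CIn I f) : CIn I (lo D f) := by
  intro n
  rw [coeff_lo]
  split_ifs
  · exact hf _
  · exact I.zero_mem

theorem CIn.add {I : Ideal B} {f g : B⟦X⟧} (hf : CIn I f) (hg : CIn I g) : CIn I (f + g) :=
  fun n => by rw [map_add]; exact I.add_mem (hf n) (hg n)

theorem CIn.neg {I : Ideal B} {f : B⟦X⟧} (hf : CIn I f) : CIn I (-f) :=
  fun n => by rw [map_neg]; exact I.neg_mem (hf n)

theorem CIn.sub {I : Ideal B} {f g : B⟦X⟧} (hf : CIn I f) (hg : CIn I g) : CIn I (f - g) :=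
  fun n => by rw [map_sub]; exact I.sub_mem (hf n) (hg n)

theorem cin_bot {f : B⟦X⟧} : CIn (⊥ : Ideal B) f ↔ f = 0 := by
  constructor
  · intro h
    ext n
    simpa using h n
  · rintro rfl n
    simp

variable {J : Ideal B} {s D : ℕ} {W : B⟦X⟧}

/-- `Φ f = hi (η f)`, with `η` the low part of `W` divided by the unit `hi D W` -/
noncomputable def Phi (D : ℕ) (W v : B⟦X⟧) (f : B⟦X⟧) : B⟦X⟧ := hi D (lo D W * v * f)

theorem Phi_add (D : ℕ) (W v f g : B⟦X⟧) : Phi D W v (f + g) = Phi D W v f + Phi D W v g := by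
  rw [Phi, mul_add, hi_add]; rfl

theorem cin_Phi {I : Ideal B} {v : B⟦X⟧} (hJ : CIn J (lo D W)) {f : B⟦X⟧} (hf : CIn I f) :
    CIn (J * I) (Phi D W v f) := by
  have h1 : CIn J (lo D W * v) := by rw [mul_comm]; exact hJ.mul_left v
  exact (h1.mul hf).hi D

theorem cin_Phi_self {I : Ideal B} {v : B⟦X⟧} {f : B⟦X⟧} (hf : CIn I f) :
    CIn I (Phi D W v f) := (hf.mul_left _).hi D

/-- `∑_{j<k} (-Φ)^j f` -/
noncomputable def geo (D : ℕ) (W v : B⟦X⟧) : ℕ → B⟦X⟧ → B⟦X⟧
  | 0, _ => 0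
  | k + 1, f => f - Phi D W v (geo D W v k f)

/-- `Φ^k f` -/
noncomputable def PhiPow (D : ℕ) (W v : B⟦X⟧) : ℕ → B⟦X⟧ → B⟦X⟧
  | 0, f => f
  | k + 1, f => - Phi D W v (PhiPow D W v k f)

theorem cin_PhiPow {I : Ideal B} {v : B⟦X⟧} (hJ : CIn J (lo D W)) {f : B⟦X⟧} (hf : CIn I f) :
    ∀ k, CIn (J ^ k * I) (PhiPow D W v k f)
  | 0 => by simpa [PhiPow] using hf
  | k + 1 => by
    rw [pow_succ', mul_assoc]
    exact (cin_Phi hJ (cin_PhiPow hJ hf k)).neg

theorem geo_succ_sub (v f : B⟦X⟧) : ∀ k, geo D W v (k + 1) f - geo D W v k f =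
    PhiPow D W v k f
  | 0 => by
    have : Phi D W v (0 : B⟦X⟧) = 0 := by rw [Phi, mul_zero, hi_zero]
    simp [geo, PhiPow, this]
  | k + 1 => by
    have h := geo_succ_sub v f k
    have h2 : geo D W v (k + 1) f = geo D W v k f + PhiPow D W v k f := by
      rw [← h]; ring
    have h3 : Phi D W v (geo D W v (k + 1) f) =
        Phi D W v (geo D W v k f) + Phi D W v (PhiPow D W v k f) := by
      rw [h2, Phi_add]
    change (f - Phi D W v (geo D W v (k + 1) f)) - (f - Phi D W v (geo D W v k f)) = _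
    rw [h3, PhiPow]
    ring

theorem cin_geo {I : Ideal B} {v f : B⟦X⟧} (hf : CIn I f) : ∀ k, CIn I (geo D W v k f)
  | 0 => fun n => by simp [geo]
  | k + 1 => hf.sub (cin_Phi_self (cin_geo hf k))

/-- The unit part of `W`. -/
theorem isUnit_hi (hD : IsUnit (coeff D W)) : IsUnit (hi D W) := by
  rw [PowerSeries.isUnit_iff_constantCoeff, ← coeff_zero_eq_constantCoeff_apply, coeff_hi]
  simpa using hD

/-- Division with remainder. -/
theorem exists_div (hJ : ∀ i < D, coeff i W ∈ J) (hs : J ^ s = ⊥) (hD : IsUnit (coeff D W))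
    (I : Ideal B) (f : B⟦X⟧) (hf : CIn I f) :
    ∃ q r : B⟦X⟧, f = W * q + r ∧ (∀ n, D ≤ n → coeff n r = 0) ∧ CIn I q ∧ CIn I r := by
  obtain ⟨u, hu⟩ := isUnit_hi hD
  have hlo : CIn J (lo D W) := by
    intro n
    rw [coeff_lo]
    split_ifs with h
    · exact hJ n h
    · exact J.zero_mem
  set v : B⟦X⟧ := ((u⁻¹ : (B⟦X⟧)ˣ) : B⟦X⟧) with hv
  have huv : hi D W * v = 1 := by rw [← hu, hv, Units.mul_inv]
  set Q := geo D W v s (hi D f) with hQ
  have hQI : CIn I Q := cin_geo (hf.hi D) s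
  -- Q + Φ Q = hi D f
  have hfix : Q + Phi D W v Q = hi D f := by
    have h1 : geo D W v (s + 1) (hi D f) - Q = PhiPow D W v s (hi D f) := geo_succ_sub _ _ s
    have h2 : PhiPow D W v s (hi D f) = 0 := by
      have := cin_PhiPow (I := I) (v := v) hlo (hf.hi D) s
      rw [hs, Ideal.bot_mul] at this
      exact cin_bot.1 this
    rw [h2, sub_eq_zero] at h1
    have h3 : geo D W v (s + 1) (hi D f) = hi D f - Phi D W v Q := rfl
    rw [h3] at h1
    linear_combination (-1 : B⟦X⟧) * h1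
  have hqI : CIn I (v * Q) := hQI.mul_left v
  refine ⟨v * Q, f - W * (v * Q), by ring, ?_, hqI, hf.sub (hqI.mul_left W)⟩
  intro n hn
  have hz : hi D (f - W * (v * Q)) = 0 := by
    have hW : W * (v * Q) = X ^ D * Q + lo D W * v * Q := by
      conv_lhs => rw [← lo_add_hi D W]
      linear_combination (X ^ D * Q) * huv
    rw [hi_sub, hW, hi_add, hi_X_pow_mul]
    change hi D f - (Q + Phi D W v Q) = 0
    rw [hfix, sub_self]
  have := congrArg (coeff (n - D)) hz
  rwa [coeff_hi, Nat.sub_add_cancel hn, map_zero] at this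

/-- Uniqueness of the division. -/
theorem eq_zero_of_mul_deg_lt (hJ : ∀ i < D, coeff i W ∈ J) (hs : J ^ s = ⊥)
    (hD : IsUnit (coeff D W)) (q : B⟦X⟧) (h : ∀ n, D ≤ n → coeff n (W * q) = 0) : q = 0 := by
  obtain ⟨u, hu⟩ := isUnit_hi hD
  have hlo : CIn J (lo D W) := by
    intro n
    rw [coeff_lo]
    split_ifs with h
    · exact hJ n h
    · exact J.zero_mem
  set v : B⟦X⟧ := ((u⁻¹ : (B⟦X⟧)ˣ) : B⟦X⟧) with hv
  have huv : hi D W * v = 1 := by rw [← hu, hv, Units.mul_inv]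
  set Q := hi D W * q with hQ
  have hq : q = v * Q := by rw [hQ, ← mul_assoc, mul_comm v, huv, one_mul]
  have hz : hi D (W * q) = 0 := by
    ext n
    rw [coeff_hi, h _ (Nat.le_add_left D n), map_zero]
  have hW : W * q = X ^ D * Q + lo D W * v * Q := by
    rw [hq]
    conv_lhs => rw [← lo_add_hi D W]
    linear_combination (X ^ D * Q) * huv
  have hfix : Q = - Phi D W v Q := by
    rw [hW, hi_add, hi_X_pow_mul] at hz
    exact eq_neg_of_add_eq_zero_left hz
  have hall : ∀ k, CIn (J ^ k) Q := by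
    intro k
    induction k with
    | zero => intro n; simp
    | succ k ih =>
      rw [hfix, pow_succ']
      exact (cin_Phi hlo ih).neg
  have h0 : Q = 0 := by
    have := hall s
    rw [hs] at this
    exact cin_bot.1 this
  rw [hq, h0, mul_zero]

/-- `X ^ (s D)` is a multiple of `W`. -/
theorem X_pow_mem (hJ : ∀ i < D, coeff i W ∈ J) (hs : J ^ s = ⊥) (hD : IsUnit (coeff D W)) :
    ∃ t : B⟦X⟧, (X : B⟦X⟧) ^ (D * s) = W * t := by
  obtain ⟨u, hu⟩ := isUnit_hi hD
  have hlo : CIn J (lo D W) := by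
    intro n
    rw [coeff_lo]
    split_ifs with h
    · exact hJ n h
    · exact J.zero_mem
  set v : B⟦X⟧ := ((u⁻¹ : (B⟦X⟧)ˣ) : B⟦X⟧) with hv
  have huv : hi D W * v = 1 := by rw [← hu, hv, Units.mul_inv]
  have h1 : X ^ D = W * v - lo D W * v := by
    conv_rhs => rw [← lo_add_hi D W]
    have : lo D (lo D W + X ^ D * hi D W) = lo D W := by rw [lo_add_hi]
    rw [this]
    linear_combination (-(X ^ D : B⟦X⟧)) * huv
  have h2 : CIn (J ^ s) ((lo D W * v) ^ s) := by
    clear h1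
    induction s with
    | zero => intro n; simp
    | succ k ih =>
      rw [pow_succ, pow_succ]
      have : CIn J (lo D W * v) := by rw [mul_comm]; exact hlo.mul_left v
      have ih' : ∀ k, CIn (J ^ k) ((lo D W * v) ^ k) := by
        intro k
        induction k with
        | zero => intro n; simp
        | succ k ih => rw [pow_succ, pow_succ]; exact ih.mul this
      exact (ih' k).mul this
  rw [hs] at h2
  have h3 := cin_bot.1 h2
  have h4 : (W * v - lo D W * v) ∣ (W * v - lo D W * v) := dvd_rfl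
  rw [pow_mul, h1]
  have h5 : W ∣ (W * v - lo D W * v) ^ s - (-(lo D W * v)) ^ s := by
    have h6 : (W * v - lo D W * v) - (-(lo D W * v)) = W * v := by ring
    exact (Dvd.intro v h6.symm).trans (sub_dvd_pow_sub_pow _ _ s)
  obtain ⟨t, ht⟩ := h5
  refine ⟨t, ?_⟩
  rw [← ht, neg_pow, h3, mul_zero, sub_zero]

/-- If `G` has order `E < D` modulo `J`, then `G m ∈ (W, X ^ N)` implies `m = 0`. -/
theorem key (hJ : ∀ i < D, coeff i W ∈ J) (hs : J ^ s = ⊥) (hD : IsUnit (coeff D W))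
    {G : B⟦X⟧} {E : ℕ} (hE : E < D) (hGJ : ∀ i < E, coeff i G ∈ J) (hGE : IsUnit (coeff E G))
    {N : ℕ} (hN : D * s ≤ N) (m : B) (f h : B⟦X⟧)
    (hm : G * C m = W * f + X ^ N * h) : m = 0 := by
  obtain ⟨t, ht⟩ := X_pow_mem hJ hs hD
  have h1 : G * C m = W * (f + t * X ^ (N - D * s) * h) := by
    rw [hm]
    have : (X : B⟦X⟧) ^ N = X ^ (D * s) * X ^ (N - D * s) := by
      rw [← pow_add, Nat.add_sub_cancel' hN]
    rw [this, ht]
    ring
  obtain ⟨u, hu⟩ := isUnit_hi (W := G) hGE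
  have hlo : CIn J (lo E G) := by
    intro n
    rw [coeff_lo]
    split_ifs with h
    · exact hGJ n h
    · exact J.zero_mem
  set v : B⟦X⟧ := ((u⁻¹ : (B⟦X⟧)ˣ) : B⟦X⟧) with hv
  have huv : hi E G * v = 1 := by rw [← hu, hv, Units.mul_inv]
  -- multiply by `v X ^ (D - 1 - E)`
  have h2 : X ^ (D - 1) * C m + (lo E G * v * X ^ (D - 1 - E)) * C m =
      W * ((f + t * X ^ (N - D * s) * h) * (v * X ^ (D - 1 - E))) := by
    have e1 : (X : B⟦X⟧) ^ (D - 1) = X ^ E * X ^ (D - 1 - E) := by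
      rw [← pow_add]
      congr 1
      omega
    have h3 := h1
    rw [← lo_add_hi E G] at h3
    have e2 : lo E (lo E G + X ^ E * hi E G) = lo E G := by rw [lo_add_hi]
    rw [e1]
    linear_combination (v * X ^ (D - 1 - E)) * h3 -
      (X ^ E * X ^ (D - 1 - E) * C m) * huv
  have hη : CIn (J * Ideal.span {m}) ((lo E G * v * X ^ (D - 1 - E)) * C m) := by
    have e3 : CIn J (lo E G * v * X ^ (D - 1 - E)) := by
      have : lo E G * v * X ^ (D - 1 - E) = (v * X ^ (D - 1 - E)) * lo E G := by ring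
      rw [this]
      exact hlo.mul_left _
    refine e3.mul ?_
    intro n
    rw [coeff_C]
    split_ifs
    · exact Ideal.mem_span_singleton_self m
    · exact Ideal.zero_mem _
  obtain ⟨q, r, hqr, hr, -, hrI⟩ := exists_div hJ hs hD _ _ hη
  have h4 : W * ((f + t * X ^ (N - D * s) * h) * (v * X ^ (D - 1 - E)) - q) =
      X ^ (D - 1) * C m + r := by
    rw [mul_sub, ← h2, hqr]
    ring
  have h5 : (f + t * X ^ (N - D * s) * h) * (v * X ^ (D - 1 - E)) - q = 0 := by
    refine eq_zero_of_mul_deg_lt hJ hs hD _ fun n hn => ?_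
    rw [h4, map_add, hr n hn, add_zero, coeff_X_pow_mul']
    rw [coeff_C]
    have : n - (D - 1) ≠ 0 := by omega
    simp [this]
  rw [h5, mul_zero] at h4
  have h6 := congrArg (coeff (D - 1)) h4
  rw [map_zero, map_add, coeff_X_pow_mul'] at h6
  simp only [le_refl, if_true, tsub_self, coeff_zero_C] at h6
  -- 0 = m + r_(D-1), r_(D-1) ∈ J m
  obtain ⟨j, hj, hjm⟩ : ∃ j ∈ J, j * m = coeff (D - 1) r := by
    have := hrI (D - 1)
    rw [Ideal.mem_mul_span_singleton] at this
    exact this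
  have h7 : (1 + j) * m = 0 := by
    rw [add_mul, one_mul, hjm]
    exact h6.symm
  have hnil : IsNilpotent j := ⟨s, by
    have : j ^ s ∈ J ^ s := Ideal.pow_mem_pow hj s
    rw [hs] at this
    simpa using this⟩
  have hunit : IsUnit (1 + j) := hnil.isUnit_one_add
  exact (hunit.mul_right_eq_zero).1 h7

/-- Module form of `key`: here `J ^ s = 0` in `A`, `G m = W f` modulo `X ^ N` is written out in
coefficients. -/
theorem key_module {A : Type*} [CommRing A] {M : Type*} [AddCommGroup M] [Module A M]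
    {J : Ideal A} {s D : ℕ} {W : A⟦X⟧} (hJ : ∀ i < D, coeff i W ∈ J) (hs : J ^ s = ⊥)
    (hD : IsUnit (coeff D W)) {G : A⟦X⟧} {E : ℕ} (hE : E < D) (hGJ : ∀ i < E, coeff i G ∈ J)
    (hGE : IsUnit (coeff E G)) {N : ℕ} (hN : D * s ≤ N) (m : M) (f : ℕ → M)
    (hm : ∀ n < N, coeff n G • m = ∑ ij ∈ antidiagonal n, coeff ij.1 W • f ij.2) : m = 0 := by
  letI : Module Aᵐᵒᵖ M := Module.compHom M ((RingHom.id A).fromOpposite mul_comm)
  haveI : IsCentralScalar A M := ⟨fun _ _ => rfl⟩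
  let B := TrivSqZeroExt A M
  let ι : A →+* B := TrivSqZeroExt.inlHom A M
  let W' : B⟦X⟧ := PowerSeries.map ι W
  let G' : B⟦X⟧ := PowerSeries.map ι G
  let J' : Ideal B := J.map ι
  have hJ' : ∀ i < D, coeff i W' ∈ J' := fun i hi => by
    rw [PowerSeries.coeff_map]
    exact Ideal.mem_map_of_mem ι (hJ i hi)
  have hGJ' : ∀ i < E, coeff i G' ∈ J' := fun i hi => by
    rw [PowerSeries.coeff_map]
    exact Ideal.mem_map_of_mem ι (hGJ i hi)
  have hs' : J' ^ s = ⊥ := by
    rw [← Ideal.map_pow, hs, Ideal.map_bot]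
  have hD' : IsUnit (coeff D W') := by
    rw [PowerSeries.coeff_map]
    exact hD.map ι
  have hGE' : IsUnit (coeff E G') := by
    rw [PowerSeries.coeff_map]
    exact hGE.map ι
  let f' : B⟦X⟧ := PowerSeries.mk fun n => TrivSqZeroExt.inr (f n)
  have hsm : ∀ (a : A) (x : M), (TrivSqZeroExt.inl a : B) * TrivSqZeroExt.inr x =
      TrivSqZeroExt.inr (a • x) := fun a x => TrivSqZeroExt.inl_mul_inr a x
  have hmain : (TrivSqZeroExt.inr m : B) = 0 := by
    refine key hJ' hs' hD' hE hGJ' hGE' hN (TrivSqZeroExt.inr m : B) f'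
      (hi N (G' * C (TrivSqZeroExt.inr m) - W' * f')) ?_
    have h1 : lo N (G' * C (TrivSqZeroExt.inr m : B) - W' * f') = 0 := by
      ext1 n
      rw [coeff_lo]
      split_ifs with hn
      · rw [map_sub, map_zero, coeff_mul_C, PowerSeries.coeff_map, coeff_mul]
        have e1 : (ι (coeff n G)) * (TrivSqZeroExt.inr m : B) =
            TrivSqZeroExt.inr (coeff n G • m) := hsm _ _
        have e2 : ∑ ij ∈ antidiagonal n, coeff ij.1 W' * coeff ij.2 f' =
            TrivSqZeroExt.inr (∑ ij ∈ antidiagonal n, coeff ij.1 W • f ij.2) := by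
          rw [TrivSqZeroExt.inr_sum]
          refine Finset.sum_congr rfl fun ij _ => ?_
          rw [PowerSeries.coeff_map, PowerSeries.coeff_mk]
          exact hsm _ _
        rw [e1, e2, hm n hn, sub_self]
      · rw [map_zero]
    have h2 := lo_add_hi N (G' * C (TrivSqZeroExt.inr m : B) - W' * f')
    rw [h1, zero_add] at h2
    rw [h2]
    ring
  exact TrivSqZeroExt.inr_injective (R := A) (by simpa using hmain)

/-- `v a^e = a^(e+1) h` implies `v^j a^e = a^(e+j) h^j`. -/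
theorem pow_mul_pow {R : Type*} [CommRing R] {v a h : R} {e : ℕ} (H : v * a ^ e = a ^ (e + 1) * h) :
    ∀ j : ℕ, v ^ j * a ^ e = a ^ (e + j) * h ^ j
  | 0 => by simp
  | j + 1 => by
    have ih := pow_mul_pow H j
    calc v ^ (j + 1) * a ^ e = (v ^ j * a ^ e) * v := by ring
      _ = (a ^ (e + j) * h ^ j) * v := by rw [ih]
      _ = (v * a ^ e) * a ^ j * h ^ j := by ring
      _ = (a ^ (e + 1) * h) * a ^ j * h ^ j := by rw [H]
      _ = a ^ (e + (j + 1)) * h ^ (j + 1) := by ring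

end Vale.Agent.P241.H344
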